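import Vale.Agent.P173.Basic

namespace Vale.Agent.P173

open Quaternion

section general
variable {V : Type} [LinearOrder V] {G : SimpleGraph V}

theorem l1_l2 (x : Tr G →₀ ℤ) : l1 G (l2 G x) = 0 := by
  have : (l1 G).comp (l2 G) = 0 := by
    refine Finsupp.lhom_ext' fun t => LinearMap.ext_ring ?_
    simp [l1, l2, e01, e12, e02]
  exact DFunLike.congr_fun this x

theorem l1_reach {u v : V} (h : G.Reachable u v) :
    ∃ y, l1 G y = Finsupp.single v 1 - Finsupp.single u 1 := by
  obtain ⟨p⟩ := h
  induction p with
  | nil => exact ⟨0, by simp⟩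
  | @cons a b c h p ih =>
    obtain ⟨y, hy⟩ := ih
    rcases lt_or_gt_of_ne h.ne with h1 | h1
    · exact ⟨y + Finsupp.single ⟨(a, b), h1, h⟩ 1, by rw [map_add, hy]; simp [l1]⟩
    · exact ⟨y - Finsupp.single ⟨(b, a), h1, h.symm⟩ 1, by rw [map_sub, hy]; simp [l1]⟩

theorem exact_of_card [Fintype V] [DecidableRel G.Adj] (hc : G.Connected)
    (S : (Ed G →₀ ℤ) →ₗ[ℤ] (Tr G →₀ ℤ)) (hS : ∀ x, S (l2 G x) = x)
    (hn : Fintype.card (Ed G) + 1 = Fintype.card (Tr G) + Fintype.card V)
    (y : Ed G →₀ ℤ) (hy : l1 G y = 0) : ∃ x, l2 G x = y := by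
  obtain ⟨v0⟩ := hc.nonempty
  let f : ((Ed G →₀ ℤ) × ℤ) →ₗ[ℤ] (V →₀ ℤ) := (l1 G).coprod (Finsupp.lsingle v0)
  have hf : ∀ z, ∃ w, f w = z := by
    intro z
    induction z using Finsupp.induction_linear with
    | zero => exact ⟨0, map_zero f⟩
    | add a b ha hb =>
      obtain ⟨a, rfl⟩ := ha
      obtain ⟨b, rfl⟩ := hb
      exact ⟨a + b, map_add f a b⟩
    | single v n =>
      obtain ⟨w, hw⟩ := l1_reach (hc.preconnected v0 v)
      refine ⟨n • (w, 1), ?_⟩
      rw [map_smul]
      simp [f, hw]
  let F := (S.comp (LinearMap.fst ℤ (Ed G →₀ ℤ) ℤ)).prod f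
  have hF : Function.Surjective F := by
    rintro ⟨x, z⟩
    obtain ⟨⟨w, n⟩, rfl⟩ := hf z
    exact ⟨(w + l2 G (x - S w), n), by simp [F, f, hS, l1_l2]⟩
  have e : ((Ed G →₀ ℤ) × ℤ) ≃ₗ[ℤ] ((Tr G →₀ ℤ) × (V →₀ ℤ)) :=
    LinearEquiv.ofFinrankEq _ _ (by simp [Module.finrank_prod, hn])
  have hi := OrzechProperty.injective_of_surjective_of_injective e.toLinearMap F e.injective hF
  refine ⟨S y, congrArg Prod.fst (hi (a₁ := (l2 G (S y), 0)) (a₂ := (y, 0)) ?_)⟩
  simp [F, f, hS, l1_l2, hy]

end general

namespace Da

/-- adjacency table -/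
def adj (u v : Fin 21) : Bool := Nat.testBit 0x279f00eaf812b7c0717e0647f0299f96006260028a800c7000964002a9000d88011b0004b4001470007fe900fea407ec903f1c41f81e0 (21 * u + v)

/-- barycentric subdivision of the two-skeleton of the Poincare sphere -/
def G : SimpleGraph (Fin 21) where
  Adj u v := adj u v = true
  symm := ⟨by decide +kernel⟩
  loopless := ⟨by decide +kernel⟩

instance : DecidableRel G.Adj := fun u v => inferInstanceAs (Decidable (adj u v = true))

/-- index of an edge -/
def iE (u v : Fin 21) : ℕ := (0x4f013a6800000000000000000000000002600012e500000000000000000000000000000092024008e00000000000000000000000000011a2c40000000000000000000000000000010e100010400000000000000000000000000020007e0003e000000000000000000000000003d780000076000000000000000000000000007401cb800000000000000000000000000000001bb600d4000000000000000000000000000000000d19b2000000000000000000000000003160bd72d58ad5005200028000000000000004e992a446890804000f80007800000000000074e1b3464c002e580002a0001400000000000992224078e000000d182c00000280000000009101c3050800000000000304040000000000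 >>> (7 * (21 * u.1 + v.1))) % 128

/-- index of a triangle -/
def iT (t : Fin 21 × Fin 21 × Fin 21) : ℕ := (0x3802300000000000000000002901400001d440c800002c098000800000000000000000000000000000002c8000350005c0028013000000000c40000280000000000680140000000eef00000000000000000003400058000000000001c40000000000094000700064010000000000000003702200002b7c0033000540000000000000000000000000900006000000000000382eae0000360210000000000000000000270120000000000000000000000000006000c0000341e6d00000000000002a78000000000000000000001b3c0c00000240000000000000000000300 >>> (6 * (t.1.1 + 5 * (t.2.1.1 - 5) + 50 * (t.2.2.1 - 15)))) % 64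

/-- the contraction -/
def sT (u v : Fin 21) (t : Fin 21 × Fin 21 × Fin 21) : ℤ := ((0x6189128614924895641985496181a12586159125524984984956065584a45555555555555555555555555555559214861985586126126154a49126066245464981a42529155641989065525555555555555555555555555555555499215618468581951899062645646189124a44954895641985496151a15555555555555555555555555555558468612559099152526068612616095499215618468492612498552642555555555555555555555555555555559158521a48495466212584986212528468612559099152522498552616155555555555555555555555555555559158521a48495466212498556212555499215618468492611899062642645555555555555555555555555555555555555555555555555555559555555555555555555555555555556555555555555555555555555555555955555555555555555555555555555655555555555555555555555555555595555555555555555555555555555565555555555555555555555555555559555555555555555555555555555556555555555555555555555555555555955555555555555555555555555555655555555555555555555555555555595555555555555555555555555555565555455555555555555555559555555555515555555555555555556555552589118614924895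641985496581a12646058551a11958584a42499494a11986149125524984984956065984a45555545555555555555555555955555955545555555555555555555955551996149125524984984956065984a42646458551a11958584a42499494a15555555555555555555555555555555555555555455555555555555655554865646069059241865469121a591855555555555155555555555555955555555555555455555555555555655519525890661156448985261249985849219860961462154691256149690949219864961462154691256149690949219860a6146215469125614969091952589066515644898526124998585555555555555555555555555555559214861985582526116154a49126465555555555555555455555555559555555555555555555515555555556556245464981a41929145641989065925555555555555555545555555555955611895492642619059211a48469465555555555555955545555555555955611895492642629059211a48469465611895492642619459211a48469465555555555555555555555555555559158521a4849546621249494621256846861255909915252246851261619549921561846849261189845264265555555555555555555555545555565555555555555555555555551555559555555555555555555555554555556555555555555555555595545555565555555555555555555556551555559555555555555555555555594555556555555555555555555555555555555555555555555555555555555555555555555555555555555555555555555555555555555555555555555555555555555555555555555555555555555555555555555555555555555555555555555555555555555555555555555555555555555555555555555555555555555555555555555555555555555555555555555555555555555555555555555555555555555555555555555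 >>> (2 * (60 * iE u v + iT t))) % 4 : ℕ) - 1

/-- coordinates of the connection -/
def qT (u v : Fin 21) (k : ℕ) : ℤ := ((0x49249625048b51224b48950b41224b49249649249641224b49b50b25448b48940b4924966d448b25448b4924966d448b48940b4924964924964924964924964924964924964924964924964924964924964924964924964924964924964924964126cb6d048b49b40b4924964126cb49b40b6d048b4924964924965126cb49249649249625048b51224b4924965126cb25048b49249648950b49249649249641224b49249649b50b49249649249649b50b4924966d448b25448b48940b492496492496492496492496492496492496492496492496492496492496492496492496492496492496492496492496492496 >>> (3 * (8 * iE u v + k))) % 8 : ℕ) - 2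

/-- coordinates of the connection in the quadratic ring -/
def q (u v : Fin 21) (k : ℕ) : ℤ√5 := ⟨qT u v (2 * k), qT u v (2 * k + 1)⟩

/-- list of triangles -/
def trs : List (Fin 21 × Fin 21 × Fin 21) := [(0, 5, 15), (0, 5, 16), (0, 5, 17), (0, 6, 16), (0, 6, 18), (0, 6, 19), (0, 7, 17), (0, 7, 18), (0, 7, 20), (0, 8, 15), (0, 8, 19), (0, 8, 20), (1, 5, 15), (1, 5, 16), (1, 5, 17), (1, 9, 15), (1, 9, 18), (1, 9, 20), (1, 10, 16), (1, 10, 19), (1, 10, 20), (1, 11, 17), (1, 11, 18), (1, 11, 19), (2, 6, 16), (2, 6, 18), (2, 6, 19), (2, 9, 15), (2, 9, 18), (2, 9, 20), (2, 12, 15), (2, 12, 17), (2, 12, 19), (2, 13, 16), (2, 13, 17), (2, 13, 20), (3, 7, 17), (3, 7, 18), (3, 7, 20), (3, 10, 16), (3, 10, 19), (3, 10, 20), (3, 12, 15), (3, 12, 17), (3, 12, 19), (3, 14, 15), (3, 14, 16), (3, 14, 18), (4, 8, 15), (4, 8, 19), (4, 8, 20), (4, 11, 17), (4, 11, 18), (4, 11, 19), (4, 13, 16), (4, 13, 17), (4, 13, 20), (4, 14, 15), (4, 14, 16), (4, 14, 18)]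

/-- spanning tree -/
def par : Fin 21 → Fin 21 := ![0, 5, 6, 7, 8, 0, 0, 0, 0, 15, 16, 17, 15, 16, 15, 0, 0, 0, 0, 0, 0]

theorem mem_trs1 : ∀ a b : Fin 21, a < b → adj a b = true → ∀ c, b < c → adj b c = true →
    adj a c = true → (a, b, c) ∈ trs := by decide +kernel

theorem mem_trs2 : (trs.all fun t => decide (t.1 < t.2.1 ∧ t.2.1 < t.2.2 ∧ adj t.1 t.2.1 = true ∧
    adj t.2.1 t.2.2 = true ∧ adj t.1 t.2.2 = true)) = true := by decide +kernel

theorem tr_mem (t : Tr G) : t.1 ∈ trs :=
  mem_trs1 _ _ t.2.1 t.2.2.2.1 _ t.2.2.1 t.2.2.2.2.1 t.2.2.2.2.2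

theorem card_tr : Fintype.card (Tr G) = 60 :=
  (Fintype.card_of_subtype trs.toFinset fun t => List.mem_toFinset.trans
    ⟨fun h => of_decide_eq_true (List.all_eq_true.1 mem_trs2 t h), fun h => tr_mem ⟨t, h⟩⟩).trans
    (List.toFinset_card_of_nodup (by decide +kernel))

theorem card_ed : Fintype.card (Ed G) = 80 := by decide +kernel

theorem sT_ok : (trs.all fun t => trs.all fun t' => decide (sT t.1 t.2.1 t' + sT t.2.1 t.2.2 t' -
    sT t.1 t.2.2 t' = if t = t' then 1 else 0)) = true := by decide +kernel

theorem q_norm : ∀ u v, q u v 0 * q u v 0 + q u v 1 * q u v 1 + q u v 2 * q u v 2 +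
    q u v 3 * q u v 3 = 16 := by decide +kernel

/-- multiplication rule for coordinates scaled by four -/
def MulOk (a b c : ℕ → ℤ√5) : Prop :=
  a 0 * b 0 - a 1 * b 1 - a 2 * b 2 - a 3 * b 3 = 4 * c 0 ∧
  a 0 * b 1 + a 1 * b 0 + a 2 * b 3 - a 3 * b 2 = 4 * c 1 ∧
  a 0 * b 2 - a 1 * b 3 + a 2 * b 0 + a 3 * b 1 = 4 * c 2 ∧
  a 0 * b 3 + a 1 * b 2 - a 2 * b 1 + a 3 * b 0 = 4 * c 3

instance (a b c) : Decidable (MulOk a b c) := by unfold MulOk; infer_instance

theorem q_mul : (trs.all fun t => decide (MulOk (q t.1 t.2.1) (q t.2.1 t.2.2) (q t.1 t.2.2))) =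
    true := by decide +kernel

/-- real embedding -/
noncomputable def r : ℤ√5 →+* ℝ := Zsqrtd.toReal (by norm_num)

/-- the quaternion with given coordinates -/
noncomputable def Q (a : ℕ → ℤ√5) : ℍ[ℝ] := ⟨r (a 0) / 4, r (a 1) / 4, r (a 2) / 4, r (a 3) / 4⟩

theorem Q_mul {a b c} (h : MulOk a b c) : Q a * Q b = Q c := by
  obtain ⟨h0, h1, h2, h3⟩ := h
  have h0 := congrArg r h0
  have h1 := congrArg r h1
  have h2 := congrArg r h2
  have h3 := congrArg r h3
  simp only [map_add, map_sub, map_mul, map_ofNat] at h0 h1 h2 h3
  ext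
  · rw [Quaternion.re_mul]; simp only [Q]; linarith
  · rw [Quaternion.imI_mul]; simp only [Q]; linarith
  · rw [Quaternion.imJ_mul]; simp only [Q]; linarith
  · rw [Quaternion.imK_mul]; simp only [Q]; linarith

/-- the connection -/
noncomputable def ψ (u v : Fin 21) : U := ⟨Q (q u v), by
  have h := congrArg r (q_norm u v)
  simp only [map_add, map_mul, map_ofNat] at h
  rw [mem_sphere_zero_iff_norm, ← mul_self_inj_of_nonneg (norm_nonneg _) zero_le_one,
    ← Quaternion.normSq_eq_norm_mul_self, Quaternion.normSq_def']
  simp only [Q]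
  linarith⟩

theorem ψ_one {u v} (h : iE u v = 0 ∨ ∀ k < 4, q u v k = q 0 0 k) : ψ u v = 1 := by
  have h1 : ∀ k < 4, q u v k = q 0 0 k := by
    rcases h with h | h
    · intro k _
      have : iE 0 0 = 0 := by decide +kernel
      simp only [q, qT, h, this]
    · exact h
  have h2 : q 0 0 0 = 4 ∧ q 0 0 1 = 0 ∧ q 0 0 2 = 0 ∧ q 0 0 3 = 0 := by decide +kernel
  refine Subtype.ext ?_
  show Q (q u v) = 1
  ext <;> simp [Q, h1, h2, map_ofNat]

theorem conn : G.Connected := by
  have h1 : ∀ v, v = par v ∨ adj v (par v) = true := by decide +kernel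
  have h2 : ∀ v, par (par v) = 0 := by decide +kernel
  have h3 : ∀ v, G.Reachable v (par v) := fun v =>
    (h1 v).elim (fun h => h ▸ SimpleGraph.Reachable.refl v) fun h => SimpleGraph.Adj.reachable h
  have h4 : ∀ v, G.Reachable v 0 := fun v => h2 v ▸ (h3 v).trans (h3 _)
  exact ⟨fun u v => (h4 u).trans (h4 v).symm⟩

theorem free : G.CliqueFree 4 := by
  let c : Fin 21 → Fin 3 := fun v => if v < 5 then 0 else if v < 15 then 1 else 2
  have h : ∀ u v, adj u v = true → c u ≠ c v := by decide +kernel
  exact SimpleGraph.Colorable.cliqueFree ⟨SimpleGraph.Coloring.mk c fun {u v} => h u v⟩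
    (by norm_num)

/-- left inverse of the boundary -/
noncomputable def S : (Ed G →₀ ℤ) →ₗ[ℤ] (Tr G →₀ ℤ) :=
  Finsupp.linearCombination ℤ fun e =>
    Finsupp.equivFunOnFinite.symm fun t => sT e.1.1 e.1.2 t.1

theorem S_l2 (x) : S (l2 G x) = x := by
  have : S.comp (l2 G) = LinearMap.id := by
    refine Finsupp.lhom_ext' fun t => LinearMap.ext_ring (Finsupp.ext fun t' => ?_)
    have h := of_decide_eq_true
      (List.all_eq_true.1 (List.all_eq_true.1 sT_ok _ (tr_mem t)) _ (tr_mem t'))
    simpa [S, l2, e01, e12, e02, Finsupp.single_apply, Subtype.ext_iff] using h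
  exact DFunLike.congr_fun this x

end Da

theorem exists_data : ∃ (G : SimpleGraph (Fin 21)) (ψ : Fin 21 → Fin 21 → U), Acyc G ∧
    Nonempty (Tr G) ∧ (∀ t : Tr G, ψ t.1.1 t.1.2.1 * ψ t.1.2.1 t.1.2.2 = ψ t.1.1 t.1.2.2) ∧
    ¬ ∃ φ : Fin 21 → U, ∀ e : Ed G, ψ e.1.1 e.1.2 = (φ e.1.1)⁻¹ * φ e.1.2 := by
  refine ⟨Da.G, Da.ψ, ⟨Da.free, Da.conn, Function.LeftInverse.injective Da.S_l2,
    exact_of_card Da.conn Da.S Da.S_l2 (by simp [Da.card_tr, Da.card_ed])⟩,
    Fintype.card_pos_iff.1 (by simp [Da.card_tr]),
    fun t => Subtype.ext (Da.Q_mul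
      (of_decide_eq_true (List.all_eq_true.1 Da.q_mul _ (Da.tr_mem t)))), ?_⟩
  rintro ⟨φ, h⟩
  have h1 := h ⟨(0, 15), by decide +kernel⟩
  have h2 := h ⟨(1, 15), by decide +kernel⟩
  have h3 := h ⟨(0, 18), by decide +kernel⟩
  have h4 := h ⟨(1, 18), by decide +kernel⟩
  simp only at h1 h2 h3 h4
  rw [Da.ψ_one (by decide +kernel), eq_inv_mul_iff_mul_eq, mul_one] at h1 h2 h3
  rw [h2, ← h1, ← h3, inv_mul_cancel] at h4
  have h5 := congrArg (fun x : U => x.1.imI) h4
  have h6 : Da.q 1 18 1 = -2 := by decide +kernel
  simp [Da.ψ, Da.Q, h6, map_ofNat] at h5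

end Vale.Agent.P173
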